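import Vale.Agent.P365.V4.H685.Hc4

/-!
# P365-T2, chain V4: the quenched centre hub, order of constants: cell first
-/

set_option linter.all false

namespace P365V4.H685

open P365L P365O P365T1 P365L.TL P365T1.Link Vale.Agent.P365.C937 Vale.Agent.P365.J376
open P365SH P365T1.H417 P365T1.ISL Matrix Complex MeasureTheory P365T1.OneVar P365T1.Isl
open scoped ENNReal

/-- the numbers of the centre hub: box radius `r`, window `w`, absorption `b1` on the windows,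
absorption in `[exp (-T), 1/2]` at the ports, at most `ε` at the centre; constant `C` -/
structure HcNum (κ : ℝ) (ms R0 : ℕ) (C : ℝ) (r : ℕ) (w b1 T ε ηc : ℝ) : Prop where
  ex : ∃ δ q : ℝ, 2 * (w + b1) * (2 * (r : ℝ) + 1) ^ (ms + 2) ≤ 1 ∧
    32 * (2 * (r : ℝ) + 1) ^ ms * κ ^ (r - R0) ≤ δ ∧
    32 * (2 * (r : ℝ) + 1) ^ (2 * ms + 2) * (w + b1) ≤ δ ∧ 1 ≤ q ∧
    C * (8 * (r : ℝ) + 9) * (1 + T) ≤ q ^ 2 ∧ δ * (C * (8 * (r : ℝ) + 9) ^ 4 * q ^ 5) ≤ 1 ∧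
    ε + 1 / q ≤ 1 / C ∧ C * (8 * (r : ℝ) + 9) * Real.sqrt (ε + 1 / q) ≤ ηc
  T0 : 0 ≤ T
  w0 : 0 ≤ w
  b0 : 0 ≤ b1

/-- **HC4 with the smooth law, one cell for all lower bounds `κy` of the density at the centre** -/
theorem hc4_cell {lam E l : ℝ} (hlam : 0 < lam) (hE : |E| < 4 + lam) (hl : 0 < l)
    (hl2 : 2 * l ≤ lam) :
    ∃ (κ lam' : ℝ) (ms R0 r0 : ℕ), 0 < κ ∧ κ < 1 ∧ 0 < lam' ∧ lam' < lam ∧
      (∀ r : ℕ, r0 ≤ r → ∃ (Vs : ℤ × ℤ → ℝ) (y : Xr r), CellGood E lam' κ ms R0 r Vs y) ∧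
      ∀ κy : ℝ, 0 < κy → ∃ C : ℝ, 1 ≤ C ∧
      ∀ {D : V3} {N : ℕ} [NeZero N] {X : Finset (Tor N)} {i r : ℕ} {c : Loc} {y : Xr r}
        {Vs : ℤ × ℤ → ℝ} {w b1 T ε ηc : ℝ}, CellIn D i r c (y : ℤ × ℤ) Vs w →
        D.m i ∣ N → CellGood E lam' κ ms R0 r Vs y →
        (∀ k, D.mov k → D.ν k = nuS lam l) → HcNum κ ms R0 C r w b1 T ε ηc →
        HC4 D N X E i κy ((lam' + lam) / 2) T b1 ε ηc := by
  obtain ⟨κ, lam', ms, R0, r0, h1, h2, h3, h4, h⟩ := exists_cellGood hlam hE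
  haveI : IsProbabilityMeasure (nuS lam l) := isProbabilityMeasure_nuS hl (by linarith)
  refine ⟨κ, lam', ms, R0, r0, h1, h2, h3, h4, h, ?_⟩
  intro κy hκy
  obtain ⟨C, hC, hisl⟩ := islFin (ay := (lam' + lam) / 2) (X := lam' + |E|)
    (g := (lam - lam') / 2) (E := E) (glaw_nuS hl (show l < lam by linarith))
    (plaw_nuS hl hl2) hκy (by linarith) (by linarith)
  refine ⟨C, hC, ?_⟩
  intro D N _ X i r c y Vs w b1 T ε ηc hcell hmN hG hlaw hn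
  obtain ⟨δ, q, a1, a2, a3, a4, a5, a6, a7, a8⟩ := hn.ex
  exact hc4_of_isl hisl hC hcell hmN hG hn.w0 hn.b0 hlaw le_rfl (by linarith) a1 a2 a3 hn.T0 a4
    a5 a6 a7 a8

end P365V4.H685
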