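import Vale.Agent.P365.V4.Def
import Vale.Agent.P365.V4.H685.Hc4b

/-!
# P365-T2, chain V4: the centre hub (HC4) of `V4/Def` from the quenched centre hub
-/

set_option linter.all false

namespace P365V4.H685

open P365L P365O P365T1 P365L.TL P365T1.Link Vale.Agent.P365.C937
open P365SH P365T1.H417 P365T1.ISL Matrix Complex MeasureTheory P365T1.OneVar P365T1.Isl
open Vale.Agent.P365.J376 (V3 BlkU Prf)
open scoped ENNReal

/-- the two adjacency matrices of a domain are the same -/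
theorem ATX_eq (N : ℕ) [NeZero N] (X : Finset (Tor N)) :
    Vale.Agent.P365.J376.ATX N X = P365V4.H685.ATX N X := rfl

variable {D : V3} {N : ℕ} [NeZero N] {X : Finset (Tor N)} {i : ℕ}
  {E κy ay T b1 ε ηc sb sc : ℝ}

/-- smaller `T`, `b1`, `ε`, larger bounds, larger rate -/
theorem HC4.mono {κy' ay' T' b1' ε' ηc' : ℝ} (h : HC4 D N X E i κy ay T b1 ε ηc)
    (hd : ∀ ν : Measure ℝ, DensGe κy' ay' ν → DensGe κy ay ν) (hT : T' ≤ T) (hb : b1' ≤ b1)
    (hε : ε' ≤ ε) (hη : ηc ≤ ηc') : HC4 D N X E i κy' ay' T' b1' ε' ηc' := by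
  intro l x hx hXb μ hμ hμl hdens e he hmov hnm hex f
  refine (h l x hx hXb μ hμ hμl (hd _ hdens) e he (fun z hz hzx hm => ?_)
    (fun z hz hzx hm => (hnm z hz hzx hm).trans hb) (hex.trans hε) f).trans ?_
  · have h1 := hmov z hz hzx hm
    exact ⟨(Real.exp_le_exp.2 (by linarith)).trans h1.1, h1.2⟩
  · exact mul_le_mul_left (ENNReal.ofReal_le_ofReal hη) _

/-- a smaller density bound on a smaller interval -/
theorem densGe_mono {κ a κ' a' : ℝ} {ν : Measure ℝ} (h : DensGe κ a ν) (hκ : κ' ≤ κ)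
    (ha : a' ≤ a) : DensGe κ' a' ν := by
  rw [DensGe] at h ⊢
  refine le_trans ?_ h
  refine Measure.le_iff.2 fun s hs => ?_
  rw [Measure.smul_apply, Measure.smul_apply, smul_eq_mul, smul_eq_mul]
  have h1 : (volume : Measure ℝ).restrict (Set.Icc (-a') a') ≤
      (volume : Measure ℝ).restrict (Set.Icc (-a) a) :=
    Measure.restrict_mono (Set.Icc_subset_Icc (by linarith) ha) le_rfl
  exact mul_le_mul' (ENNReal.ofReal_le_ofReal hκ) (h1 s)

/-- **(HC4) of `V4/Def` from the quenched centre hub**: `X` a union of blocks of family `i` -/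
theorem hc4_label {ρ : Measure ℝ} (hD : D.Ok ρ) (hi : i ≤ D.I)
    (h : HC4 D N X E i κy ay T b1 ε ηc) (hX : BlkU (D.m i) X)
    {e : (Tor N → D.Λ) → Tor N → ℝ} (hp : Prf D N i sb sc ε b1 e)
    (hT : Real.exp (-T) ≤ sb * (D.e0 i * Real.exp (-(D.a i)))) (hε : ε ≤ 1 / 2)
    (hd : ∀ k, D.mov k → DensGe κy ay (D.ν k)) :
    Vale.Agent.P365.J376.HC4 D N X E e i ηc := by
  intro l x hx hc f
  exact h l x hc (fun z hz => (hX z x hz).2 hx) (fun z => D.ν (l z)) (fun z => hD.prob _)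
    (fun _ _ _ => rfl) (hd _ (hD.cen_mov hi hc)) (e l) (hp.pos l)
    (fun z _ _ hm => ⟨hT.trans (hp.mov_ge l z hm), (hp.le l z).trans hε⟩)
    (fun z _ _ hm => hp.nm_le l z hm) (hp.le l x) f

end P365V4.H685
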