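import Vale.Agent.P365.T1.ConcDD755
import Vale.Agent.P365.T2.ConcG795
import Vale.Agent.P365.T2.HCparG795
import Vale.Agent.P365.V4.Datum394
import Vale.Agent.P365.V4.H685.Bridge

/-!
# P365-T2, chain V4: the centre hub for the concrete chain, every base `β`
-/

set_option linter.all false

namespace P365V4.H685

open P365L P365O P365L.TL P365SH Vale.Agent.P365.C937 MeasureTheory Set Filter
open Vale.Agent.P365.J376 (V3 BlkU Prf)
open P365T1 P365T1.Link P365T1.Bump P365T1.HCnum P365T2.SeqG P365T2.ConcG P365T2.HCnumG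
open P365T1.Conc (Par APar mk Lw tau0 tau0_pos tau0_le l0_pos l0_lt two_l0_le nuB_ae
  mem_Xr_of_abs cellIn)
open scoped ENNReal

/-! ### the centre law, with or without noise -/

/-- the smooth law has a density at least `κy` on `[-(lam' + lam) / 2, (lam' + lam) / 2]`, also
after adding independent noise which is at most `h` with probability at least `1 / 2` -/
theorem centre_dens {lam lam' l : ℝ} (hl : 0 < l) (hl2 : 2 * l ≤ lam) (h : lam' < lam) :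
    ∃ κy h : ℝ, 0 < κy ∧ 0 < h ∧ DensGe κy ((lam' + lam) / 2) (nuS lam l) ∧
      ∀ m : Measure ℝ, IsProbabilityMeasure m →
        ENNReal.ofReal (1 / 2) ≤ m (Set.Icc (-h) h) →
        DensGe κy ((lam' + lam) / 2) (((nuS lam l).prod m).map fun z => z.1 + z.2) := by
  obtain ⟨κ, hκ, hd⟩ := densGe_nuS hl hl2 (show (lam' + 3 * lam) / 4 < lam by linarith)
  haveI : IsProbabilityMeasure (nuS lam l) := isProbabilityMeasure_nuS hl (by linarith)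
  refine ⟨1 / 2 * κ, (lam - lam') / 4, by positivity, by linarith,
    densGe_mono hd (by linarith) (by linarith), fun m hm h2 => ?_⟩
  have h3 := densGe_conv (h := (lam - lam') / 4) (m := m) hκ.le hd (p := 1 / 2) (by norm_num) h2
  exact densGe_mono h3 le_rfl (by linarith)

/-! ### cells -/

section cells

variable {β : ℕ} [hβ : Fact (2 ≤ β)]

/-- **the cells of the chain, base `β`** -/
theorem cellIn_G {yf : ℕ → ℤ × ℤ} {rs I : ℕ} (hrs : 2 ≤ rs)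
    (hy : ∀ r, rs ≤ r → |(yf r).1| < r ∧ |(yf r).2| < r)
    {p : (PP β yf rs I).Lb → ℝ} {ν : (PP β yf rs I).Lb → Measure ℝ} {Vsf : ℕ → ℤ × ℤ → ℝ}
    {w : ℕ → ℝ} {i : ℕ} (hi : i ≤ I) (hw : 0 < w i)
    (hν : ∀ z : ((Xr (rr β rs i)).erase (yf (rr β rs i)) : Finset (ℤ × ℤ)),
      ν ((PP β yf rs I).win ⟨⟨i, Nat.lt_succ_of_le hi⟩, z⟩) = nuB (Vsf (rr β rs i) z) (w i)) :
    CellIn (DD p ν) i (rr β rs i) (4 * rr β rs i, 4 * rr β rs i) (yf (rr β rs i))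
      (Vsf (rr β rs i)) (w i) := by
  have hok : (PP β yf rs I).Ok := PP_ok hrs (fun r hr => mem_Xr_of_abs (hy r hr).1 (hy r hr).2) I
  have hr : rs ≤ rr β rs i := le_rr (by omega) i
  refine cellIn (P := PP β yf rs I) (Q := QQ p ν) hok (i := i) hi (hy _ hr).1 (hy _ hr).2
    (Vs := Vsf (rr β rs i)) (w := w i) ?_
  intro a ha
  have h2 := hν ⟨a, ha⟩
  exact (congrArg (fun μ : Measure ℝ => ∀ᵐ t ∂μ, |t - Vsf (rr β rs i) a| ≤ w i) h2).mpr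
    (nuB_ae hw)

end cells

/-! ### the chain -/

/-- **the quenched centre hub for the concrete chain**: one cell `yf`, `Vsf` for all lower bounds
`κy` of the density at the centre, all rates `1 / r ^ n`, all `T ≤ 8 r ^ A` -/
theorem hc4_chain (β : ℕ) [Fact (2 ≤ β)] {lam E l : ℝ} (hlam : 0 < lam) (hE : |E| < 4 + lam)
    (hl : 0 < l) (hl2 : 2 * l ≤ lam) :
    ∃ (lam' : ℝ) (yf : ℕ → ℤ × ℤ) (Vsf : ℕ → ℤ × ℤ → ℝ) (R1 : ℕ), 0 < lam' ∧ lam' < lam ∧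
      2 ≤ R1 ∧ (∀ r, R1 ≤ r → |(yf r).1| < r ∧ |(yf r).2| < r) ∧ (∀ r z, |Vsf r z| ≤ lam') ∧
      ∀ κy : ℝ, 0 < κy → ∀ A n : ℕ, ∃ R : ℕ, R1 ≤ R ∧ ∀ rs, R ≤ rs → ∀ (I : ℕ)
        (p : (PP β yf rs I).Lb → ℝ) (ν : (PP β yf rs I).Lb → Measure ℝ),
        (∀ k, (DD p ν).mov k → ν k = nuS lam l) →
        (∀ (i : ℕ) (hi : i ≤ I)
          (z : ((Xr (rr β rs i)).erase (yf (rr β rs i)) : Finset (ℤ × ℤ))),
          ν ((PP β yf rs I).win ⟨⟨i, Nat.lt_succ_of_le hi⟩, z⟩) =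
            nuB (Vsf (rr β rs i) z) (Real.exp (-(rr β rs i : ℝ)))) →
        ∀ (N : ℕ) [NeZero N] (X : Finset (Tor N)), ∀ i ≤ I, mS β rs i ∣ N →
        ∀ T b1 ε : ℝ, T ≤ 8 * (rr β rs i : ℝ) ^ A → b1 ≤ Real.exp (-(rr β rs i : ℝ)) →
          ε ≤ 3 * Real.exp (-(rr β rs i : ℝ)) →
          HC4 (DD p ν) N X E i κy ((lam' + lam) / 2) T b1 ε (1 / (rr β rs i : ℝ) ^ n) := by
  obtain ⟨κ, lam', ms, R0, r0, hκ0, hκ1, hl0, hl1, hcell, hmain⟩ := hc4_cell hlam hE hl hl2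
  have hch : ∀ r : ℕ, ∃ (Vs : ℤ × ℤ → ℝ) (y : ℤ × ℤ), (∀ z, |Vs z| ≤ lam') ∧
      (r0 ≤ r → ∃ hy : y ∈ Xr r, CellGood E lam' κ ms R0 r Vs ⟨y, hy⟩) := by
    intro r
    by_cases hr : r0 ≤ r
    · obtain ⟨Vs, y, h⟩ := hcell r hr
      exact ⟨Vs, (y : ℤ × ℤ), h.Vs_le, fun _ => ⟨y.2, h⟩⟩
    · exact ⟨fun _ => 0, 0, fun z => by rw [abs_zero]; exact hl0.le, fun h => absurd h hr⟩
  choose Vsf yf hVs hgood using hch
  have hyb : ∀ r, max (max r0 R0) 2 ≤ r → |(yf r).1| < r ∧ |(yf r).2| < r := by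
    intro r hr
    obtain ⟨hy', hG'⟩ := hgood r (by omega)
    have h1 := hG'.y1
    have h2 := hG'.y2
    simp only at h1 h2
    constructor
    · refine lt_of_lt_of_le h1 ?_
      exact_mod_cast (show R0 ≤ r by omega)
    · refine lt_of_lt_of_le h2 ?_
      exact_mod_cast (show R0 ≤ r by omega)
  refine ⟨lam', yf, Vsf, max (max r0 R0) 2, hl0, hl1, by omega, hyb, hVs, ?_⟩
  intro κy hκy A n
  obtain ⟨C, hC, hmain⟩ := hmain κy hκy
  obtain ⟨R, -, hR⟩ := exists_rs β ((hc_numG hC hκ0 hκ1 ms R0 A n).and (window_num ms))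
  refine ⟨max (max (max r0 R0) 2) R, le_max_left _ _, ?_⟩
  intro rs hrs I p ν hmov hwin N _ X i hi hN T b1 ε hT hb hε
  have hrs2 : 2 ≤ rs := by omega
  have hrr : rs ≤ rr β rs i := le_rr (by omega) i
  obtain ⟨hnum, hwn⟩ := hR rs (by omega) i
  obtain ⟨hy, hG⟩ := hgood (rr β rs i) (by omega)
  have hcin : CellIn (DD p ν) i (rr β rs i) (4 * rr β rs i, 4 * rr β rs i) (yf (rr β rs i))
      (Vsf (rr β rs i)) (Real.exp (-(rr β rs i : ℝ))) :=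
    cellIn_G (Vsf := Vsf) (w := fun i => Real.exp (-(rr β rs i : ℝ))) hrs2
      (fun r hr => hyb r (by omega)) hi (Real.exp_pos _) (fun z => hwin i hi z)
  have he := Real.exp_pos (-(rr β rs i : ℝ))
  have hκp : κ ^ (rr β rs i - R0) ≤ κ ^ (rr β rs i - (R0 + 1)) :=
    pow_le_pow_of_le_one hκ0.le hκ1.le (by omega)
  obtain ⟨a1, a2, a3, a4, a5⟩ := hnum (Real.exp (-(rr β rs i : ℝ)))
    (Real.exp (-(rr β rs i : ℝ))) (3 * Real.exp (-(rr β rs i : ℝ))) (8 * (rr β rs i : ℝ) ^ A)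
    (8 * (rr β rs i : ℝ) + 8) (κ ^ (rr β rs i - (R0 + 1))) he.le le_rfl he.le le_rfl
    (by positivity) le_rfl (by positivity) le_rfl (by positivity) le_rfl (by positivity) le_rfl
  have hw1 := hwn (Real.exp (-(rr β rs i : ℝ))) (Real.exp (-(rr β rs i : ℝ))) le_rfl le_rfl
  have hk1 : 8 * (rr β rs i : ℝ) + 8 + 1 = 8 * (rr β rs i : ℝ) + 9 := by ring
  rw [hk1] at a2 a3 a5
  have hg0 : (0 : ℝ) ≤ κ ^ (rr β rs i - (R0 + 1)) := by positivity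
  have hn : HcNum κ ms R0 C (rr β rs i) (Real.exp (-(rr β rs i : ℝ)))
      (Real.exp (-(rr β rs i : ℝ))) (8 * (rr β rs i : ℝ) ^ A)
      (3 * Real.exp (-(rr β rs i : ℝ))) (1 / (rr β rs i : ℝ) ^ n) := by
    refine ⟨⟨32 * (2 * (rr β rs i : ℝ) + 1) ^ (2 * ms + 2) *
      (Real.exp (-(rr β rs i : ℝ)) + Real.exp (-(rr β rs i : ℝ))) +
      32 * (2 * (rr β rs i : ℝ) + 1) ^ ms * κ ^ (rr β rs i - (R0 + 1)),
      (rr β rs i : ℝ) ^ (2 * (A + n + 2)), hw1, ?_, ?_, a1, ?_, ?_, a4, ?_⟩, by positivity,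
      he.le, he.le⟩
    · have h1 : 0 ≤ 32 * (2 * (rr β rs i : ℝ) + 1) ^ (2 * ms + 2) *
        (Real.exp (-(rr β rs i : ℝ)) + Real.exp (-(rr β rs i : ℝ))) := by positivity
      have h2 : 32 * (2 * (rr β rs i : ℝ) + 1) ^ ms * κ ^ (rr β rs i - R0) ≤
          32 * (2 * (rr β rs i : ℝ) + 1) ^ ms * κ ^ (rr β rs i - (R0 + 1)) := by gcongr
      linarith
    · have h1 : 0 ≤ 32 * (2 * (rr β rs i : ℝ) + 1) ^ ms * κ ^ (rr β rs i - (R0 + 1)) := by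
        positivity
      linarith
    · rw [mul_assoc]
      exact a2
    · rw [mul_assoc C]
      exact a3
    · rw [mul_assoc]
      exact a5
  exact (hmain (D := DD p ν) (X := X) (y := ⟨yf (rr β rs i), hy⟩) hcin hN hG hmov hn).mono
    (fun _ h => h) hT hb hε le_rfl

/-- **(HC4) of `V4/Def` for the concrete chain with the laws `nuD`**: every domain which is a union
of blocks, every admissible profile with `exp (-8 r ^ A) ≤ sb * e0 * exp (-a)`, all rates -/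
theorem hc4_dd (β : ℕ) [Fact (2 ≤ β)] {lam E : ℝ} (hlam : 0 < lam) (hE : |E| < 4 + lam) :
    ∃ (lam' : ℝ) (yf : ℕ → ℤ × ℤ) (Vsf : ℕ → ℤ × ℤ → ℝ) (R1 : ℕ), 0 < lam' ∧ lam' < lam ∧
      2 ≤ R1 ∧ (∀ r, R1 ≤ r → |(yf r).1| < r ∧ |(yf r).2| < r) ∧ (∀ r z, |Vsf r z| ≤ lam') ∧
      ∀ A n : ℕ, ∃ R : ℕ, R1 ≤ R ∧ ∀ rs, R ≤ rs → ∀ I : ℕ, AdmS β lam yf Vsf rs I ∧
        ∀ (N : ℕ) [NeZero N] (X : Finset (Tor N)), ∀ i ≤ I, mS β rs i ∣ N → BlkU (mS β rs i) X →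
        ∀ (sb sc ε b1 : ℝ)
          (e : (Tor N → (DD (pS β yf rs I) (nuD β lam yf Vsf rs I)).Λ) → Tor N → ℝ),
          Prf (DD (pS β yf rs I) (nuD β lam yf Vsf rs I)) N i sb sc ε b1 e →
          Real.exp (-(8 * (rr β rs i : ℝ) ^ A)) ≤
            sb * (e0S β rs i * Real.exp (-(aS β rs i))) →
          ε ≤ 3 * Real.exp (-(rr β rs i : ℝ)) → b1 ≤ Real.exp (-(rr β rs i : ℝ)) →
          Vale.Agent.P365.J376.HC4 (DD (pS β yf rs I) (nuD β lam yf Vsf rs I)) N X E e i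
            (1 / (rr β rs i : ℝ) ^ n) := by
  have hl := l0_pos hlam
  have hl2 := two_l0_le hlam
  obtain ⟨lam', yf, Vsf, R1, h1, h2, hR1, h3, h4, hmain⟩ := hc4_chain β hlam hE hl hl2
  obtain ⟨κy, h, hκy, -, hd, -⟩ := centre_dens hl hl2 h2
  obtain ⟨R2, hR2, hadm⟩ := exists_admS β hlam h2
  refine ⟨lam', yf, Vsf, R1, h1, h2, hR1, h3, h4, fun A n => ?_⟩
  obtain ⟨R, hR, hmain⟩ := hmain κy hκy A n
  refine ⟨max (max R R2) 5, by omega, fun rs hrs I => ?_⟩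
  have ha : AdmS β lam yf Vsf rs I := hadm rs (by omega) yf Vsf (fun r _ z => h4 r z) I
  refine ⟨ha, ?_⟩
  intro N _ X i hi hN hX sb sc ε b1 e hp hT hε hb
  have hok : (DD (pS β yf rs I) (nuD β lam yf Vsf rs I)).Ok (nuL lam) :=
    DD_ok (by omega) (fun r hr => mem_Xr_of_abs (h3 r (by omega)).1 (h3 r (by omega)).2)
      (lw_DD ha)
  have hq := hmain rs (by omega) I (pS β yf rs I) (nuD β lam yf Vsf rs I)
    (fun k hk => nuD_mov' ha hk) (fun i hi z => nuD_win hi z) N X i hi hN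
    (8 * (rr β rs i : ℝ) ^ A) b1 ε le_rfl hb hε
  have h5 : rs ≤ rr β rs i := le_rr (by omega) i
  have h6 : (5 : ℝ) ≤ rr β rs i := by exact_mod_cast (show 5 ≤ rr β rs i by omega)
  have hε2 : ε ≤ 1 / 2 := by
    refine hε.trans ?_
    have h7 := Real.add_one_le_exp (rr β rs i : ℝ)
    rw [Real.exp_neg]
    have h8 : (Real.exp (rr β rs i : ℝ))⁻¹ ≤ (6 : ℝ)⁻¹ := inv_anti₀ (by norm_num) (by linarith)
    linarith
  refine hc4_label hok hi hq hX hp hT hε2 fun k hk => ?_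
  have h7 : (DD (pS β yf rs I) (nuD β lam yf Vsf rs I)).ν k = nuS lam (lam * tau0 / 2) :=
    nuD_mov' ha hk
  rw [h7]
  exact hd

/-- the same with `A = 5 β`: bulk strength at least the final factor `t (i + 1)` -/
theorem hc4_dd' (β : ℕ) [Fact (2 ≤ β)] {lam E : ℝ} (hlam : 0 < lam) (hE : |E| < 4 + lam) :
    ∃ (lam' : ℝ) (yf : ℕ → ℤ × ℤ) (Vsf : ℕ → ℤ × ℤ → ℝ) (R1 : ℕ), 0 < lam' ∧ lam' < lam ∧
      2 ≤ R1 ∧ (∀ r, R1 ≤ r → |(yf r).1| < r ∧ |(yf r).2| < r) ∧ (∀ r z, |Vsf r z| ≤ lam') ∧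
      ∀ n : ℕ, ∃ R : ℕ, R1 ≤ R ∧ ∀ rs, R ≤ rs → ∀ I : ℕ, AdmS β lam yf Vsf rs I ∧
        ∀ (N : ℕ) [NeZero N] (X : Finset (Tor N)), ∀ i ≤ I, mS β rs i ∣ N → BlkU (mS β rs i) X →
        ∀ (sb sc ε b1 : ℝ)
          (e : (Tor N → (DD (pS β yf rs I) (nuD β lam yf Vsf rs I)).Λ) → Tor N → ℝ),
          Prf (DD (pS β yf rs I) (nuD β lam yf Vsf rs I)) N i sb sc ε b1 e →
          tS β rs I (i + 1) ≤ sb →
          ε ≤ 3 * e0S β rs i → b1 ≤ e0S β rs i →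
          Vale.Agent.P365.J376.HC4 (DD (pS β yf rs I) (nuD β lam yf Vsf rs I)) N X E e i
            (1 / (rr β rs i : ℝ) ^ n) := by
  obtain ⟨lam', yf, Vsf, R1, h1, h2, hR1, h3, h4, hmain⟩ := hc4_dd β hlam hE
  refine ⟨lam', yf, Vsf, R1, h1, h2, hR1, h3, h4, fun n => ?_⟩
  obtain ⟨R, hR, hmain⟩ := hmain (5 * β) n
  refine ⟨R, hR, fun rs hrs I => ⟨(hmain rs hrs I).1, ?_⟩⟩
  intro N _ X i hi hN hX sb sc ε b1 e hp hsb hε hb
  refine (hmain rs hrs I).2 N X i hi hN hX sb sc ε b1 e hp ?_ hε hb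
  refine (own_ge (show 2 ≤ rs by omega) hi).trans ?_
  have := e0S_pos (β := β) rs i
  gcongr

end P365V4.H685
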