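import Vale.Agent.P365.V4.Inst
import Vale.Agent.P365.V4.H685.Chain4

/-!
# P365-T2, chain V4: the centre hub for the concrete chain, profiles at most `K e0`; instance for
the two-strength profiles of `V4/Inst`
-/

set_option linter.all false

namespace P365V4.H685

open P365L P365O P365L.TL P365SH Vale.Agent.P365.C937 MeasureTheory Set Filter
open Vale.Agent.P365.J376 (V3 V4 BlkU Prf)
open P365T1 P365T1.Link P365T1.Bump P365T1.HCnum P365T2.SeqG P365T2.ConcG P365T2.HCnumG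
open P365T1.Conc (Par APar mk Lw tau0 tau0_pos tau0_le l0_pos l0_lt two_l0_le nuB_ae
  mem_Xr_of_abs cellIn)
open scoped ENNReal

/-- the constants of the centre hub with `ε ≤ 3 K exp (-r)` -/
theorem hc_numK {C κ K : ℝ} (hC : 1 ≤ C) (hκ0 : 0 < κ) (hκ1 : κ < 1) (hK : 1 ≤ K)
    (ms R0 A n : ℕ) :
    ∀ᶠ r : ℕ in atTop, ∀ w b ε T k g : ℝ, 0 ≤ w → w ≤ Real.exp (-(r : ℝ)) →
      0 ≤ b → b ≤ Real.exp (-(r : ℝ)) → 0 ≤ ε → ε ≤ 3 * K * Real.exp (-(r : ℝ)) →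
      0 ≤ T → T ≤ 8 * (r : ℝ) ^ A → 0 ≤ k → k ≤ 8 * (r : ℝ) + 8 → 0 ≤ g →
      g ≤ κ ^ (r - (R0 + 1)) →
      1 ≤ (r : ℝ) ^ (2 * (A + n + 2)) ∧
      C * ((k + 1) * (1 + T)) ≤ ((r : ℝ) ^ (2 * (A + n + 2))) ^ 2 ∧
      (32 * (2 * (r : ℝ) + 1) ^ (2 * ms + 2) * (w + b) + 32 * (2 * (r : ℝ) + 1) ^ ms * g) *
        (C * ((k + 1) ^ 4 * ((r : ℝ) ^ (2 * (A + n + 2))) ^ 5)) ≤ 1 ∧
      ε + 1 / (r : ℝ) ^ (2 * (A + n + 2)) ≤ 1 / C ∧
      C * ((k + 1) * Real.sqrt (ε + 1 / (r : ℝ) ^ (2 * (A + n + 2)))) ≤ 1 / (r : ℝ) ^ n := by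
  have hK0 : 0 < K := by linarith
  have hC0 : 0 < C := by linarith
  have hKC : C ≤ K * C := by nlinarith
  filter_upwards [hc_numG (C := K * C) (by nlinarith) hκ0 hκ1 ms R0 A n] with r hr
  intro w b ε T k g hw0 hw hb0 hb hε0 hε hT0 hT hk0 hk hg0 hg
  obtain ⟨a1, a2, a3, a4, a5⟩ := hr w b (ε / K) T k g hw0 hw hb0 hb (by positivity)
    (by rw [div_le_iff₀ hK0]; linarith) hT0 hT hk0 hk hg0 hg
  have hq : 0 < (r : ℝ) ^ (2 * (A + n + 2)) := by linarith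
  have hle : ε + 1 / (r : ℝ) ^ (2 * (A + n + 2)) ≤
      K * (ε / K + 1 / (r : ℝ) ^ (2 * (A + n + 2))) := by
    have e1 : K * (ε / K) = ε := by field_simp
    have e2 : 0 ≤ 1 / (r : ℝ) ^ (2 * (A + n + 2)) := by positivity
    rw [mul_add K (ε / K), e1]
    have e3 := mul_le_mul_of_nonneg_right hK e2
    linarith
  have hx0 : 0 ≤ ε / K + 1 / (r : ℝ) ^ (2 * (A + n + 2)) := by positivity
  refine ⟨a1, le_trans ?_ a2, le_trans ?_ a3, hle.trans ?_, le_trans ?_ a5⟩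
  · gcongr
  · gcongr
  · calc K * (ε / K + 1 / (r : ℝ) ^ (2 * (A + n + 2))) ≤ K * (1 / (K * C)) := by gcongr
      _ = 1 / C := by
          field_simp
  · have h1 : Real.sqrt (ε + 1 / (r : ℝ) ^ (2 * (A + n + 2))) ≤
        K * Real.sqrt (ε / K + 1 / (r : ℝ) ^ (2 * (A + n + 2))) := by
      rw [Real.sqrt_le_left (by positivity), mul_pow, Real.sq_sqrt hx0]
      refine hle.trans ?_
      gcongr
      nlinarith
    calc C * ((k + 1) * Real.sqrt (ε + 1 / (r : ℝ) ^ (2 * (A + n + 2))))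
        ≤ C * ((k + 1) * (K * Real.sqrt (ε / K + 1 / (r : ℝ) ^ (2 * (A + n + 2))))) := by
          gcongr
      _ = K * C * ((k + 1) * Real.sqrt (ε / K + 1 / (r : ℝ) ^ (2 * (A + n + 2)))) := by ring

/-- **the quenched centre hub for the concrete chain**: profiles at most `K exp (-r)` at the
centre -/
theorem hc4_chainK (β : ℕ) [Fact (2 ≤ β)] {lam E l : ℝ} (hlam : 0 < lam) (hE : |E| < 4 + lam)
    (hl : 0 < l) (hl2 : 2 * l ≤ lam) :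
    ∃ (lam' : ℝ) (yf : ℕ → ℤ × ℤ) (Vsf : ℕ → ℤ × ℤ → ℝ) (R1 : ℕ), 0 < lam' ∧ lam' < lam ∧
      2 ≤ R1 ∧ (∀ r, R1 ≤ r → |(yf r).1| < r ∧ |(yf r).2| < r) ∧ (∀ r z, |Vsf r z| ≤ lam') ∧
      ∀ κy : ℝ, 0 < κy → ∀ K : ℝ, ∀ A n : ℕ, ∃ R : ℕ, R1 ≤ R ∧ ∀ rs, R ≤ rs → ∀ (I : ℕ)
        (p : (PP β yf rs I).Lb → ℝ) (ν : (PP β yf rs I).Lb → Measure ℝ),
        (∀ k, (DD p ν).mov k → ν k = nuS lam l) →
        (∀ (i : ℕ) (hi : i ≤ I)
          (z : ((Xr (rr β rs i)).erase (yf (rr β rs i)) : Finset (ℤ × ℤ))),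
          ν ((PP β yf rs I).win ⟨⟨i, Nat.lt_succ_of_le hi⟩, z⟩) =
            nuB (Vsf (rr β rs i) z) (Real.exp (-(rr β rs i : ℝ)))) →
        ∀ (N : ℕ) [NeZero N] (X : Finset (Tor N)), ∀ i ≤ I, mS β rs i ∣ N →
        ∀ T b1 ε : ℝ, T ≤ 8 * (rr β rs i : ℝ) ^ A → b1 ≤ Real.exp (-(rr β rs i : ℝ)) →
          ε ≤ K * Real.exp (-(rr β rs i : ℝ)) →
          HC4 (DD p ν) N X E i κy ((lam' + lam) / 2) T b1 ε (1 / (rr β rs i : ℝ) ^ n) := by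
  obtain ⟨κ, lam', ms, R0, r0, hκ0, hκ1, hl0, hl1, hcell, hmain⟩ := hc4_cell hlam hE hl hl2
  have hch : ∀ r : ℕ, ∃ (Vs : ℤ × ℤ → ℝ) (y : ℤ × ℤ), (∀ z, |Vs z| ≤ lam') ∧
      (r0 ≤ r → ∃ hy : y ∈ Xr r, CellGood E lam' κ ms R0 r Vs ⟨y, hy⟩) := by
    intro r
    by_cases hr : r0 ≤ r
    · obtain ⟨Vs, y, h⟩ := hcell r hr
      exact ⟨Vs, (y : ℤ × ℤ), h.Vs_le, fun _ => ⟨y.2, h⟩⟩
    · exact ⟨fun _ => 0, 0, fun z => by rw [abs_zero]; exact hl0.le, fun h => absurd h hr⟩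
  choose Vsf yf hVs hgood using hch
  have hyb : ∀ r, max (max r0 R0) 2 ≤ r → |(yf r).1| < r ∧ |(yf r).2| < r := by
    intro r hr
    obtain ⟨hy', hG'⟩ := hgood r (by omega)
    have h1 := hG'.y1
    have h2 := hG'.y2
    simp only at h1 h2
    constructor
    · refine lt_of_lt_of_le h1 ?_
      exact_mod_cast (show R0 ≤ r by omega)
    · refine lt_of_lt_of_le h2 ?_
      exact_mod_cast (show R0 ≤ r by omega)
  refine ⟨lam', yf, Vsf, max (max r0 R0) 2, hl0, hl1, by omega, hyb, hVs, ?_⟩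
  intro κy hκy K A n
  obtain ⟨C, hC, hmain⟩ := hmain κy hκy
  obtain ⟨R, -, hR⟩ := exists_rs β
    ((hc_numK hC hκ0 hκ1 (le_max_left 1 K) ms R0 A n).and (window_num ms))
  refine ⟨max (max (max r0 R0) 2) R, le_max_left _ _, ?_⟩
  intro rs hrs I p ν hmov hwin N _ X i hi hN T b1 ε hT hb hε
  have hrs2 : 2 ≤ rs := by omega
  have hrr : rs ≤ rr β rs i := le_rr (by omega) i
  obtain ⟨hnum, hwn⟩ := hR rs (by omega) i
  obtain ⟨hy, hG⟩ := hgood (rr β rs i) (by omega)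
  have hcin : CellIn (DD p ν) i (rr β rs i) (4 * rr β rs i, 4 * rr β rs i) (yf (rr β rs i))
      (Vsf (rr β rs i)) (Real.exp (-(rr β rs i : ℝ))) :=
    cellIn_G (Vsf := Vsf) (w := fun i => Real.exp (-(rr β rs i : ℝ))) hrs2
      (fun r hr => hyb r (by omega)) hi (Real.exp_pos _) (fun z => hwin i hi z)
  have he := Real.exp_pos (-(rr β rs i : ℝ))
  have hκp : κ ^ (rr β rs i - R0) ≤ κ ^ (rr β rs i - (R0 + 1)) :=
    pow_le_pow_of_le_one hκ0.le hκ1.le (by omega)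
  have hK1 : (0 : ℝ) ≤ 3 * max 1 K := by positivity
  obtain ⟨a1, a2, a3, a4, a5⟩ := hnum (Real.exp (-(rr β rs i : ℝ)))
    (Real.exp (-(rr β rs i : ℝ))) (3 * max 1 K * Real.exp (-(rr β rs i : ℝ)))
    (8 * (rr β rs i : ℝ) ^ A)
    (8 * (rr β rs i : ℝ) + 8) (κ ^ (rr β rs i - (R0 + 1))) he.le le_rfl he.le le_rfl
    (by positivity) le_rfl (by positivity) le_rfl (by positivity) le_rfl (by positivity) le_rfl
  have hw1 := hwn (Real.exp (-(rr β rs i : ℝ))) (Real.exp (-(rr β rs i : ℝ))) le_rfl le_rfl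
  have hk1 : 8 * (rr β rs i : ℝ) + 8 + 1 = 8 * (rr β rs i : ℝ) + 9 := by ring
  rw [hk1] at a2 a3 a5
  have hg0 : (0 : ℝ) ≤ κ ^ (rr β rs i - (R0 + 1)) := by positivity
  have hn : HcNum κ ms R0 C (rr β rs i) (Real.exp (-(rr β rs i : ℝ)))
      (Real.exp (-(rr β rs i : ℝ))) (8 * (rr β rs i : ℝ) ^ A)
      (3 * max 1 K * Real.exp (-(rr β rs i : ℝ))) (1 / (rr β rs i : ℝ) ^ n) := by
    refine ⟨⟨32 * (2 * (rr β rs i : ℝ) + 1) ^ (2 * ms + 2) *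
      (Real.exp (-(rr β rs i : ℝ)) + Real.exp (-(rr β rs i : ℝ))) +
      32 * (2 * (rr β rs i : ℝ) + 1) ^ ms * κ ^ (rr β rs i - (R0 + 1)),
      (rr β rs i : ℝ) ^ (2 * (A + n + 2)), hw1, ?_, ?_, a1, ?_, ?_, a4, ?_⟩, by positivity,
      he.le, he.le⟩
    · have h1 : 0 ≤ 32 * (2 * (rr β rs i : ℝ) + 1) ^ (2 * ms + 2) *
        (Real.exp (-(rr β rs i : ℝ)) + Real.exp (-(rr β rs i : ℝ))) := by positivity
      have h2 : 32 * (2 * (rr β rs i : ℝ) + 1) ^ ms * κ ^ (rr β rs i - R0) ≤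
          32 * (2 * (rr β rs i : ℝ) + 1) ^ ms * κ ^ (rr β rs i - (R0 + 1)) := by gcongr
      linarith
    · have h1 : 0 ≤ 32 * (2 * (rr β rs i : ℝ) + 1) ^ ms * κ ^ (rr β rs i - (R0 + 1)) := by
        positivity
      linarith
    · rw [mul_assoc]
      exact a2
    · rw [mul_assoc C]
      exact a3
    · rw [mul_assoc]
      exact a5
  refine (hmain (D := DD p ν) (X := X) (y := ⟨yf (rr β rs i), hy⟩) hcin hN hG hmov hn).mono
    (fun _ h => h) hT hb (hε.trans ?_) le_rfl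
  have h1 : K ≤ 3 * max 1 K := by
    have h2 := le_max_right 1 K
    have h3 := le_max_left 1 K
    linarith
  exact mul_le_mul_of_nonneg_right h1 he.le

/-- **(HC4) of `V4/Def` for the concrete chain with the laws `nuD`**, profiles at most `K e0`: every
domain which is a union of blocks, every admissible profile with
`exp (-8 r ^ A) ≤ sb * e0 * exp (-a)`, all rates; the third and fourth items of the result are the
admissibility of the laws and the conditions `Ok` -/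
theorem hc4_ddK (β : ℕ) [Fact (2 ≤ β)] {lam E : ℝ} (hlam : 0 < lam) (hE : |E| < 4 + lam) :
    ∃ (lam' : ℝ) (yf : ℕ → ℤ × ℤ) (Vsf : ℕ → ℤ × ℤ → ℝ) (R1 : ℕ), 0 < lam' ∧ lam' < lam ∧
      2 ≤ R1 ∧ (∀ r, R1 ≤ r → |(yf r).1| < r ∧ |(yf r).2| < r) ∧ (∀ r z, |Vsf r z| ≤ lam') ∧
      ∀ K : ℝ, ∀ A n : ℕ, ∃ R : ℕ, R1 ≤ R ∧ ∀ rs, R ≤ rs → ∀ I : ℕ, AdmS β lam yf Vsf rs I ∧
        (DD (pS β yf rs I) (nuD β lam yf Vsf rs I)).Ok (nuL lam) ∧
        ∀ (N : ℕ) [NeZero N] (X : Finset (Tor N)), ∀ i ≤ I, mS β rs i ∣ N → BlkU (mS β rs i) X →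
        ∀ (sb sc ε b1 : ℝ)
          (e : (Tor N → (DD (pS β yf rs I) (nuD β lam yf Vsf rs I)).Λ) → Tor N → ℝ),
          Prf (DD (pS β yf rs I) (nuD β lam yf Vsf rs I)) N i sb sc ε b1 e →
          Real.exp (-(8 * (rr β rs i : ℝ) ^ A)) ≤
            sb * (e0S β rs i * Real.exp (-(aS β rs i))) →
          ε ≤ K * Real.exp (-(rr β rs i : ℝ)) → b1 ≤ Real.exp (-(rr β rs i : ℝ)) →
          Vale.Agent.P365.J376.HC4 (DD (pS β yf rs I) (nuD β lam yf Vsf rs I)) N X E e i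
            (1 / (rr β rs i : ℝ) ^ n) := by
  have hl := l0_pos hlam
  have hl2 := two_l0_le hlam
  obtain ⟨lam', yf, Vsf, R1, h1, h2, hR1, h3, h4, hmain⟩ := hc4_chainK β hlam hE hl hl2
  obtain ⟨κy, h, hκy, -, hd, -⟩ := centre_dens hl hl2 h2
  obtain ⟨R2, hR2, hadm⟩ := exists_admS β hlam h2
  refine ⟨lam', yf, Vsf, R1, h1, h2, hR1, h3, h4, fun K A n => ?_⟩
  obtain ⟨R, hR, hmain⟩ := hmain κy hκy K A n
  obtain ⟨R3, -, hR3⟩ := exists_rs β (ev_exp 0 (A := 2 * max 1 K) (by positivity))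
  refine ⟨max (max R R2) R3, by omega, fun rs hrs I => ?_⟩
  have ha : AdmS β lam yf Vsf rs I := hadm rs (by omega) yf Vsf (fun r _ z => h4 r z) I
  have hok : (DD (pS β yf rs I) (nuD β lam yf Vsf rs I)).Ok (nuL lam) :=
    DD_ok (by omega) (fun r hr => mem_Xr_of_abs (h3 r (by omega)).1 (h3 r (by omega)).2)
      (lw_DD ha)
  refine ⟨ha, hok, ?_⟩
  intro N _ X i hi hN hX sb sc ε b1 e hp hT hε hb
  have hq := hmain rs (by omega) I (pS β yf rs I) (nuD β lam yf Vsf rs I)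
    (fun k hk => nuD_mov' ha hk) (fun i hi z => nuD_win hi z) N X i hi hN
    (8 * (rr β rs i : ℝ) ^ A) b1 ε le_rfl hb hε
  have hε2 : ε ≤ 1 / 2 := by
    have h6 := hR3 rs (by omega) i
    rw [pow_zero, one_mul] at h6
    have h7 : K * Real.exp (-(rr β rs i : ℝ)) ≤ max 1 K * Real.exp (-(rr β rs i : ℝ)) :=
      mul_le_mul_of_nonneg_right (le_max_right _ _) (Real.exp_pos _).le
    linarith
  refine hc4_label hok hi hq hX hp hT hε2 fun k hk => ?_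
  have h7 : (DD (pS β yf rs I) (nuD β lam yf Vsf rs I)).ν k = nuS lam (lam * tau0 / 2) :=
    nuD_mov' ha hk
  rw [h7]
  exact hd

/-- **(HC4) for the two-strength profiles of `V4/Inst`**: floor at most `e0 (I + 1)`, bulk strength
at least `t (i + 1)` -/
theorem hc4_inst (β : ℕ) [Fact (2 ≤ β)] {lam E : ℝ} (hlam : 0 < lam) (hE : |E| < 4 + lam) :
    ∃ (lam' : ℝ) (yf : ℕ → ℤ × ℤ) (Vsf : ℕ → ℤ × ℤ → ℝ) (R1 : ℕ), 0 < lam' ∧ lam' < lam ∧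
      2 ≤ R1 ∧ (∀ r, R1 ≤ r → |(yf r).1| < r ∧ |(yf r).2| < r) ∧ (∀ r z, |Vsf r z| ≤ lam') ∧
      ∀ n : ℕ, ∃ R : ℕ, R1 ≤ R ∧ ∀ rs, R ≤ rs → ∀ I : ℕ, AdmS β lam yf Vsf rs I ∧
        (DD (pS β yf rs I) (nuD β lam yf Vsf rs I)).Ok (nuL lam) ∧
        ∀ (N : ℕ) [NeZero N] (D : V4 N),
          D.toV3 = DD (pS β yf rs I) (nuD β lam yf Vsf rs I) → D.Ok (nuL lam) →
          D.b' ≤ e0S β rs (I + 1) → ∀ i ≤ I, mS β rs i ∣ N →
          ∀ sc sb : ℝ, 0 < sb → tS β rs I (i + 1) ≤ sb → sb ≤ sc → sc ≤ 1 →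
          Vale.Agent.P365.J376.HC4 D.toV3 N D.X E (D.prof i sc sb) i
            (1 / (rr β rs i : ℝ) ^ n) := by
  obtain ⟨lam', yf, Vsf, R1, h1, h2, hR1, h3, h4, hmain⟩ := hc4_ddK β hlam hE
  refine ⟨lam', yf, Vsf, R1, h1, h2, hR1, h3, h4, fun n => ?_⟩
  obtain ⟨R, hR, hmain⟩ := hmain 4 (5 * β) n
  refine ⟨R, hR, fun rs hrs I => ⟨(hmain rs hrs I).1, (hmain rs hrs I).2.1, ?_⟩⟩
  intro N _ D hD hok hb' i hi hN sc sb hsb htsb hcb hsc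
  obtain ⟨V, X, fl, b'⟩ := D
  simp only at hD
  subst hD
  have hpr := V4.Ok.prf hok (i := i) hi hsb hcb hsc
  have hrs2 : 2 ≤ rs := by omega
  have hanti : e0S β rs (I + 1) ≤ e0S β rs i := e0S_antitone (by omega) (by omega)
  refine (hmain rs hrs I).2.2 N X i hi hN (fun x y hxy => hok.dom i hi x y hxy) sb sc _ _ _ hpr
    ?_ ?_ ?_
  · refine (own_ge hrs2 hi).trans ?_
    have := e0S_pos (β := β) rs i
    gcongr
  · show b' + (∑ j ∈ Finset.Ico (i + 1) (I + 1), e0S β rs j) + 3 * e0S β rs i ≤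
      4 * e0S β rs i
    have h5 := tail_e0S_floor (β := β) hrs2 hi
    have h6 : b' ≤ e0S β rs (I + 1) := hb'
    linarith
  · exact hb'.trans hanti

end P365V4.H685
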