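import Vale.Agent.P365.ISL.RowT77
import Vale.Agent.P365.ISL.HC77

/-!
# P365-T2, chain V4: the torus graph restricted to a set of sites; boxes inside the set
-/

set_option linter.all false

namespace P365V4.H685

open P365L P365O P365T1 P365L.TL P365T1.Link Vale.Agent.P365.C937 Vale.Agent.P365.J376
open P365SH P365T1.H417 P365T1.ISL Matrix Complex MeasureTheory
open scoped ENNReal

/-- adjacency of the torus restricted to `X` (the sites off `X` are isolated) -/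
def ATX (N : ℕ) (X : Finset (Tor N)) : Matrix (Tor N) (Tor N) ℝ :=
  fun x y => if x ∈ X ∧ y ∈ X then AT N x y else 0

section basic

variable {N : ℕ} {X : Finset (Tor N)} {x y : Tor N}

theorem ATX_mem (hx : x ∈ X) (hy : y ∈ X) : ATX N X x y = AT N x y := if_pos ⟨hx, hy⟩

theorem ATX_off_left (hx : x ∉ X) : ATX N X x y = 0 := if_neg fun h => hx h.1

theorem ATX_off_right (hy : y ∉ X) : ATX N X x y = 0 := if_neg fun h => hy h.2

theorem ATX_ne (h : ATX N X x y ≠ 0) : AT N x y ≠ 0 ∧ x ∈ X ∧ y ∈ X := by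
  unfold ATX at h
  split_ifs at h with h1
  · exact ⟨h, h1⟩
  · exact absurd rfl h

theorem ATX_zero (h : AT N x y = 0) : ATX N X x y = 0 := by
  by_contra hne
  exact (ATX_ne hne).1 h

theorem ATX_symm (N : ℕ) (X : Finset (Tor N)) : (ATX N X).IsSymm := by
  ext x y
  rw [Matrix.transpose_apply]
  unfold ATX
  have h := congrFun (congrFun (AT_symm N) x) y
  rw [Matrix.transpose_apply] at h
  rw [h]
  simp only [and_comm]

theorem ATX_zo (x y : Tor N) : ATX N X x y = 0 ∨ ATX N X x y = 1 := by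
  unfold ATX
  split_ifs
  · exact AT_eq_zero_or_one x y
  · exact Or.inl rfl

theorem ATX_nonneg (x y : Tor N) : 0 ≤ ATX N X x y := by
  rcases ATX_zo (X := X) x y with h | h <;> rw [h] <;> norm_num

theorem ATX_le (x y : Tor N) : ATX N X x y ≤ AT N x y := by
  unfold ATX
  split_ifs
  · exact le_rfl
  · exact AT_nonneg x y

theorem ATX_row_le [NeZero N] (x : Tor N) : ∑ y, ATX N X x y ≤ 4 :=
  (Finset.sum_le_sum fun y _ => ATX_le x y).trans (row_sum_le x)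

theorem ATX_row_abs [NeZero N] (x : Tor N) : ∑ y, |ATX N X x y| ≤ 4 := by
  simp_rw [abs_of_nonneg (ATX_nonneg (X := X) x _)]
  exact ATX_row_le x

theorem ATX_univ [NeZero N] : ATX N Finset.univ = AT N := by
  ext x y
  exact ATX_mem (Finset.mem_univ _) (Finset.mem_univ _)

/-- the restricted graph is a graph of degree at most four -/
theorem ATX_gph [NeZero N] (hd : ∀ x : Tor N, AT N x x = 0) : Gph (ATX N X) where
  symm := ATX_symm N X
  zo := ATX_zo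
  diag := fun x => ATX_zero (hd x)
  deg := fun x => ATX_row_le x

end basic

/-! ### boxes -/

section box

variable {N : ℕ} {X : Finset (Tor N)} {x : Tor N} {y0 : ℤ × ℤ} {r : ℕ}

theorem boxEmbX [NeZero N] (hN : 2 * r + 2 < N) (y0 : ℤ × ℤ)
    (hX : ∀ a ∈ Xr r, ph x y0 a ∈ X) : BoxEmb (ATX N X) r (ph x y0) := by
  have h := boxEmb (x := x) hN y0
  constructor
  · exact ATX_symm N X
  · exact ATX_row_abs
  · exact h.inj
  · intro a b
    rw [ATX_mem (hX a a.2) (hX b b.2)]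
    exact h.adj a b
  · intro a ha z hz
    exact ATX_zero (h.out a ha z hz)

theorem cboxX (hN : 2 * r + 2 < N) (h1 : |y0.1| < r) (h2 : |y0.2| < r) :
    CBox (ATX N X) x (LcT x y0 r) (ST x y0 r) := by
  have h := cbox (x := x) hN h1 h2
  exact ⟨h.yL, h.yS, h.LS, fun k hk => ATX_zero (h.ny k hk),
    fun n hn k hk hky hkS => ATX_zero (h.nL n hn k hk hky hkS)⟩

end box

section row

variable {N : ℕ} [NeZero N] {X : Finset (Tor N)} {x : Tor N} {r : ℕ} {y : Xr r}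
  {Vs : ℤ × ℤ → ℝ} {w E lam' κ b1 : ℝ} {ms R0 : ℕ}

/-- **ROW at the centre of a box inside `X`**: every profile which is at most `b1` on the interior of
the cell, every potential in the windows of the cell -/
theorem row_box (hN : 2 * r + 2 < N) (hy1 : |(y : ℤ × ℤ).1| < r) (hy2 : |(y : ℤ × ℤ).2| < r)
    (hX : ∀ a ∈ Xr r, ph x (y : ℤ × ℤ) a ∈ X) (hG : CellGood E lam' κ ms R0 r Vs y) (hw : 0 ≤ w)
    (hb1 : 0 ≤ b1) (hu : 2 * (w + b1) * (2 * (r : ℝ) + 1) ^ (ms + 2) ≤ 1) {δ : ℝ}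
    (hδ1 : 32 * (2 * (r : ℝ) + 1) ^ ms * κ ^ (r - R0) ≤ δ)
    (hδ2 : 32 * (2 * (r : ℝ) + 1) ^ (2 * ms + 2) * (w + b1) ≤ δ)
    {e : Tor N → ℝ} (he : ∀ z, 0 < e z) (heL : ∀ z ∈ LcT x (y : ℤ × ℤ) r, e z ≤ b1)
    {v : Tor N → ℝ} (hv : ∀ a ∈ Xr r, a ≠ (y : ℤ × ℤ) → |v (ph x (y : ℤ × ℤ) a) - Vs a| ≤ w) :
    Row (ATX N X) E e x (ST x (y : ℤ × ℤ) r) ((sE r Vs E y - E : ℝ) : ℂ) δ v := by
  have hcb := cboxX (X := X) (x := x) hN hy1 hy2
  have hW := WV_neg (E := E) he v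
  have hphy : ph x (y : ℤ × ℤ) (y : ℤ × ℤ) = x := ph_self
  have hcell := hG.cell (Tor N) (ATX N X) (WV E e v) (ph x (y : ℤ × ℤ)) (w + b1)
    (boxEmbX hN _ hX) hW (fun a ha => by
      have ha' : (a : ℤ × ℤ) ≠ y := fun h' => ha (Subtype.ext h')
      have hz : ph x (y : ℤ × ℤ) a ∈ LcT x (y : ℤ × ℤ) r :=
        Finset.mem_image.2 ⟨a, Finset.mem_erase.2 ⟨ha', a.2⟩, rfl⟩
      have h1 := heL _ hz
      have h2 := hv a a.2 ha'
      refine norm_sub_le_of_window ?_ (hW _) ?_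
      · have h3 : (WV E e v (ph x (y : ℤ × ℤ) a)).re =
            v (ph x (y : ℤ × ℤ) a) - E := by simp [WV]
        rw [h3]
        have h4 : v (ph x (y : ℤ × ℤ) a) - E - (Vs a - E) = v (ph x (y : ℤ × ℤ) a) - Vs a := by
          ring
        rw [h4]
        exact h2
      · rw [WV_im, neg_neg]
        exact h1)
    hu (by linarith)
  rw [LcX_eq, hphy] at hcell
  obtain ⟨h1, h2⟩ := hcell
  refine ⟨fun z => tt (ATX N X) (WV E e v) (LcT x (y : ℤ × ℤ) r) x z,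
    tt (ATX N X) (WV E e v) (LcT x (y : ℤ × ℤ) r) x x, ?_, h2.trans hδ2, ?_⟩
  · intro z hz
    refine (h1 z ?_).trans hδ1
    rintro ⟨a, ha, haz⟩
    obtain ⟨b, hb', hbz⟩ := Finset.mem_image.1 hz
    obtain ⟨hbX, hbr⟩ := Finset.mem_sdiff.1 hb'
    refine hbr ?_
    rw [ph_inj (x := x) (y0 := (y : ℤ × ℤ)) hN hbX (Xr_mono (by omega) ha) (by rw [hbz, haz])]
    exact ha
  · intro F hyF hF z hz
    have hWF := wF_neg (E := E) he F v
    have hzL : z ∉ LcT x (y : ℤ × ℤ) r := by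
      intro hzL
      rcases Finset.mem_insert.1 hz with rfl | hzS
      · exact hcb.yL hzL
      · exact Finset.disjoint_left.1 hcb.LS hzL hzS
    have h3 := hcb.row' (ATX_symm N X) hWF hW (fun k hk => ?_) hzL
    · rw [wF_mem hyF] at h3
      exact h3
    · refine (wF_not_mem ?_).symm
      intro hkF
      rcases Finset.mem_insert.1 (hF hkF) with rfl | hkS
      · exact hcb.yL hk
      · exact Finset.disjoint_left.1 hcb.LS hk hkS

/-- almost every potential is in the windows of the box -/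
theorem ae_win_box {μ : Tor N → Measure ℝ} [∀ z, IsProbabilityMeasure (μ z)] {y0 : ℤ × ℤ}
    (hwin : ∀ a ∈ Xr r, a ≠ y0 → ∀ᵐ t ∂(μ (ph x y0 a)), |t - Vs a| ≤ w) :
    ∀ᵐ v ∂(Measure.pi μ), ∀ a ∈ Xr r, a ≠ y0 → |v (ph x y0 a) - Vs a| ≤ w := by
  have h1 : ∀ a : ℤ × ℤ, ∀ᵐ v ∂(Measure.pi μ), a ∈ Xr r → a ≠ y0 →
      |v (ph x y0 a) - Vs a| ≤ w := by
    intro a
    by_cases ha : a ∈ Xr r ∧ a ≠ y0
    · have h2 := hwin a ha.1 ha.2
      have h3 : MeasurePreserving (Function.eval (ph x y0 a)) (Measure.pi μ)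
          (μ (ph x y0 a)) := measurePreserving_eval _ _
      have h4 := h3.quasiMeasurePreserving.ae h2
      filter_upwards [h4] with v hv _ _
      exact hv
    · refine Filter.Eventually.of_forall fun v h2 h3 => absurd ⟨h2, h3⟩ ha
  exact ae_all_iff.2 h1

/-- **the centre hub of a box inside `X`, quenched**: arbitrary laws outside the cell, one law `μp`
at the ports, law with density at least `κy` on `[-ay, ay]` at the centre, arbitrary profile -/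
theorem hub_box {μp : Measure ℝ} {Xc g κy ay C : ℝ} (hisl : IslFin μp E Xc g κy ay C)
    (hC1 : 1 ≤ C) (hN : 2 * r + 2 < N) (hy1 : |(y : ℤ × ℤ).1| < r) (hy2 : |(y : ℤ × ℤ).2| < r)
    (hX : ∀ a ∈ Xr r, ph x (y : ℤ × ℤ) a ∈ X) (hG : CellGood E lam' κ ms R0 r Vs y) (hw : 0 ≤ w)
    (hb1 : 0 ≤ b1) (hXc : lam' + |E| ≤ Xc) (hg : lam' + g ≤ ay)
    (hu : 2 * (w + b1) * (2 * (r : ℝ) + 1) ^ (ms + 2) ≤ 1) {δ : ℝ}
    (hδ1 : 32 * (2 * (r : ℝ) + 1) ^ ms * κ ^ (r - R0) ≤ δ)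
    (hδ2 : 32 * (2 * (r : ℝ) + 1) ^ (2 * ms + 2) * (w + b1) ≤ δ)
    {μ : Tor N → Measure ℝ} [∀ z, IsProbabilityMeasure (μ z)]
    (hwin : ∀ a ∈ Xr r, a ≠ (y : ℤ × ℤ) → ∀ᵐ t ∂(μ (ph x (y : ℤ × ℤ) a)), |t - Vs a| ≤ w)
    (hport : ∀ z ∈ ST x (y : ℤ × ℤ) r, μ z = μp) (hdens : DensGe κy ay (μ x))
    {e : Tor N → ℝ} (he : ∀ z, 0 < e z) (heL : ∀ z ∈ LcT x (y : ℤ × ℤ) r, e z ≤ b1)
    {T : ℝ} (hT : 0 ≤ T) (heS : ∀ z ∈ ST x (y : ℤ × ℤ) r, Real.exp (-T) ≤ e z)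
    (heS2 : ∀ z ∈ ST x (y : ℤ × ℤ) r, e z ≤ 1 / 2) {ε : ℝ} (hex : e x ≤ ε)
    {q : ℝ} (hq1 : 1 ≤ q) (hq2 : C * (8 * (r : ℝ) + 9) * (1 + T) ≤ q ^ 2)
    (hq3 : δ * (C * (8 * (r : ℝ) + 9) ^ 4 * q ^ 5) ≤ 1) (hq4 : ε + 1 / q ≤ 1 / C)
    {ηc : ℝ} (hη : C * (8 * (r : ℝ) + 9) * Real.sqrt (ε + 1 / q) ≤ ηc) (f : Tor N → ℝ) :
    ∫⁻ v, ENNReal.ofReal (Yf (ATX N X) (WV E e v) f x) ∂(Measure.pi μ) ≤
      ENNReal.ofReal ηc *
        ∫⁻ v, ENNReal.ofReal (Mf (ATX N X) (WV E e v) f x) ∂(Measure.pi μ) := by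
  have hcb := cboxX (X := X) (x := x) hN hy1 hy2
  have hδ0 : 0 ≤ δ := le_trans (by have := hG.hκ; positivity) hδ1
  have hcard : ((ST x (y : ℤ × ℤ) r).card : ℝ) + 1 ≤ 8 * (r : ℝ) + 9 := by
    have := card_ST_le (x := x) (y0 := (y : ℤ × ℤ)) (r := r)
    have h2 : ((ST x (y : ℤ × ℤ) r).card : ℝ) ≤ 8 * r + 8 := by exact_mod_cast this
    linarith
  have hcard0 : (0 : ℝ) ≤ ((ST x (y : ℤ × ℤ) r).card : ℝ) + 1 := by positivity
  have hC0 : 0 ≤ C := by linarith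
  have hsE := hG.sE_le
  have hsq : e x + 1 / q ≤ ε + 1 / q := by linarith
  have main := hisl (Tor N) (ATX N X) μ e x
    (ST x (y : ℤ × ℤ) r) (sE r Vs E y - E) T δ q (ATX_symm N X) he hcb.yS
    (ST_nonempty hN x _) hport hdens hT heS heS2
    ((abs_sub _ _).trans (by linarith)) (by
      have : E + (sE r Vs E y - E) = sE r Vs E y := by ring
      rw [this]; linarith) hδ0
    (by
      filter_upwards [ae_win_box (x := x) (r := r) (Vs := Vs) (w := w) hwin] with v hv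
      exact row_box hN hy1 hy2 hX hG hw hb1 hu hδ1 hδ2 he heL hv)
    (le_trans (by gcongr) hq2) (le_trans (by gcongr) hq3) (hsq.trans hq4) hq1 f
  refine main.trans (mul_le_mul' (ENNReal.ofReal_le_ofReal (le_trans ?_ hη)) le_rfl)
  have h1 : Real.sqrt (e x + 1 / q) ≤ Real.sqrt (ε + 1 / q) := Real.sqrt_le_sqrt hsq
  have h2 := Real.sqrt_nonneg (e x + 1 / q)
  gcongr

end row

end P365V4.H685
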