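import Vale.Agent.P365.V4.H685.Ax
import Vale.Agent.P365.ISL.Dens77

/-!
# P365-T2, chain V4: the quenched centre hub (HC4)

`D : V3` is used only for its labels, patterns and laws.  The laws outside the cell, the profile and
the test function are arbitrary.
-/

set_option linter.all false

namespace P365V4.H685

open P365L P365O P365T1 P365L.TL P365T1.Link Vale.Agent.P365.C937 Vale.Agent.P365.J376
open P365SH P365T1.H417 P365T1.ISL Matrix Complex MeasureTheory P365T1.OneVar P365T1.Isl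
open scoped ENNReal

section cell

variable {D : V3} {N : ℕ} [NeZero N] {i r : ℕ} {c : Loc} {y0 : ℤ × ℤ}
  {Vs : ℤ × ℤ → ℝ} {w : ℝ}

/-- the sites of the cell and its ports are in the block of the centre -/
theorem cell_bi (hC : CellIn D i r c y0 Vs w) (hmN : D.m i ∣ N) {l : Tor N → D.Λ} {x : Tor N}
    (hx : D.cen i l x) {a : ℤ × ℤ} (ha : a ∈ Xr (r + 1)) :
    bi (D.m i) (ph x y0 a) = bi (D.m i) x := by
  obtain ⟨hM, hlc⟩ := hx
  have c1 := hC.c1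
  have c1' := hC.c1'
  have c2 := hC.c2
  have c2' := hC.c2'
  have y1 := abs_lt.1 hC.y1
  have y2 := abs_lt.1 hC.y2
  rw [mem_Xr] at ha
  push_cast at ha
  rw [hC.y_eq] at hlc
  have e1 : ((lc (D.m i) x).1 : ℤ) = c.1 + y0.1 := by
    rw [hlc, loc]
    simp only
    rw [Int.toNat_of_nonneg (by omega)]
  have e2 : ((lc (D.m i) x).2 : ℤ) = c.2 + y0.2 := by
    rw [hlc, loc]
    simp only
    rw [Int.toNat_of_nonneg (by omega)]
  have h := bi_lc_em (m := D.m i) (by omega) hmN x (d := (a.1 - y0.1, a.2 - y0.2))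
    (by rw [e1]; simp only; omega) (by rw [e1]; simp only; omega)
    (by rw [e2]; simp only; omega) (by rw [e2]; simp only; omega)
  exact h.1

theorem cell_ne (hC : CellIn D i r c y0 Vs w) (hmN : D.m i ∣ N) {x : Tor N} {a : ℤ × ℤ}
    (ha : a ∈ Xr (r + 1)) (hay : a ≠ y0) : ph x y0 a ≠ x := by
  intro h
  have hy : y0 ∈ Xr (r + 1) := by
    have y1 := abs_lt.1 hC.y1
    have y2 := abs_lt.1 hC.y2
    rw [mem_Xr]
    push_cast
    omega
  refine hay (ph_inj (x := x) (y0 := y0) (r := r) (hC.N_gt hmN) ha hy ?_)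
  rw [h, ph_self]

end cell

variable {D : V3} {N : ℕ} [NeZero N] {X : Finset (Tor N)} {i r : ℕ} {c : Loc} {y : Xr r}
  {Vs : ℤ × ℤ → ℝ} {w E lam' κ b1 : ℝ} {ms R0 : ℕ}

/-- the quenched centre hub of family `i` on the domain `X`: at the centre `x` of a matched block
which is contained in `X`, for all laws which agree with the label laws on the block off `x` and
have a density at least `κy` on `[-ay, ay]` at `x`, all profiles `e > 0` which are in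
`[exp (-T), 1/2]` at the movable sites of the block, at most `b1` at its other sites, and at most
`ε` at `x`, all test functions -/
def HC4 (D : V3) (N : ℕ) [NeZero N] (X : Finset (Tor N)) (E : ℝ) (i : ℕ)
    (κy ay T b1 ε ηc : ℝ) : Prop :=
  ∀ (l : Tor N → D.Λ) (x : Tor N), D.cen i l x → (∀ z, bi (D.m i) z = bi (D.m i) x → z ∈ X) →
    ∀ μ : Tor N → Measure ℝ, (∀ z, IsProbabilityMeasure (μ z)) →
      (∀ z, bi (D.m i) z = bi (D.m i) x → z ≠ x → μ z = D.ν (l z)) → DensGe κy ay (μ x) →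
      ∀ e : Tor N → ℝ, (∀ z, 0 < e z) →
        (∀ z, bi (D.m i) z = bi (D.m i) x → z ≠ x → D.mov (l z) →
          Real.exp (-T) ≤ e z ∧ e z ≤ 1 / 2) →
        (∀ z, bi (D.m i) z = bi (D.m i) x → z ≠ x → ¬ D.mov (l z) → e z ≤ b1) → e x ≤ ε →
        ∀ f : Tor N → ℝ,
          ∫⁻ v, ENNReal.ofReal (Yf (ATX N X) (WV E e v) f x) ∂(Measure.pi μ) ≤
            ENNReal.ofReal ηc *
              ∫⁻ v, ENNReal.ofReal (Mf (ATX N X) (WV E e v) f x) ∂(Measure.pi μ)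

/-- **HC4 from the insulated site lemma** -/
theorem hc4_of_isl {μp : Measure ℝ} {Xc g κy ay C : ℝ} (hisl : IslFin μp E Xc g κy ay C)
    (hC1 : 1 ≤ C) (hcell : CellIn D i r c (y : ℤ × ℤ) Vs w) (hmN : D.m i ∣ N)
    (hG : CellGood E lam' κ ms R0 r Vs y) (hw : 0 ≤ w) (hb1 : 0 ≤ b1)
    (hlaw : ∀ k, D.mov k → D.ν k = μp) (hXc : lam' + |E| ≤ Xc) (hg : lam' + g ≤ ay)
    (hu : 2 * (w + b1) * (2 * (r : ℝ) + 1) ^ (ms + 2) ≤ 1) {δ : ℝ}
    (hδ1 : 32 * (2 * (r : ℝ) + 1) ^ ms * κ ^ (r - R0) ≤ δ)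
    (hδ2 : 32 * (2 * (r : ℝ) + 1) ^ (2 * ms + 2) * (w + b1) ≤ δ)
    {T : ℝ} (hT : 0 ≤ T) {ε : ℝ}
    {q : ℝ} (hq1 : 1 ≤ q) (hq2 : C * (8 * (r : ℝ) + 9) * (1 + T) ≤ q ^ 2)
    (hq3 : δ * (C * (8 * (r : ℝ) + 9) ^ 4 * q ^ 5) ≤ 1) (hq4 : ε + 1 / q ≤ 1 / C)
    {ηc : ℝ} (hη : C * (8 * (r : ℝ) + 9) * Real.sqrt (ε + 1 / q) ≤ ηc) :
    HC4 D N X E i κy ay T b1 ε ηc := by
  intro l x hx hXb μ hμ hμl hdens e he hmov hnm hex f
  have hN := hcell.N_gt hmN
  have hlab : ∀ a ∈ Xr (r + 1), a ≠ (y : ℤ × ℤ) →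
      bi (D.m i) (ph x (y : ℤ × ℤ) a) = bi (D.m i) x ∧ ph x (y : ℤ × ℤ) a ≠ x ∧
      l (ph x (y : ℤ × ℤ) a) = D.pat i (loc c a) := fun a ha hay =>
    ⟨cell_bi hcell hmN hx ha, cell_ne hcell hmN ha hay, hcell.lab hmN hx ha⟩
  refine hub_box hisl hC1 hN hcell.y1 hcell.y2 (fun a ha => ?_) hG hw hb1 hXc hg hu hδ1 hδ2
    (fun a ha hay => ?_) (fun z hz => ?_) hdens he (fun z hz => ?_) hT (fun z hz => ?_)
    (fun z hz => ?_) hex hq1 hq2 hq3 hq4 hη f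
  · exact hXb _ (cell_bi hcell hmN hx (Xr_mono (by omega) ha))
  · obtain ⟨h1, h2, h3⟩ := hlab a (Xr_mono (by omega) ha) hay
    rw [hμl _ h1 h2, h3]
    exact hcell.win a ha hay
  · obtain ⟨a, ha, rfl⟩ := Finset.mem_image.1 hz
    obtain ⟨haX, har⟩ := Finset.mem_sdiff.1 ha
    have hay : a ≠ (y : ℤ × ℤ) := by
      rintro rfl
      exact har y.2
    obtain ⟨h1, h2, h3⟩ := hlab a haX hay
    rw [hμl _ h1 h2]
    exact hlaw _ (h3 ▸ hcell.port a haX har)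
  · obtain ⟨a, ha, rfl⟩ := Finset.mem_image.1 hz
    obtain ⟨hay, haX⟩ := Finset.mem_erase.1 ha
    obtain ⟨h1, h2, h3⟩ := hlab a (Xr_mono (by omega) haX) hay
    exact hnm _ h1 h2 (h3 ▸ hcell.win_mov a haX hay)
  · obtain ⟨a, ha, rfl⟩ := Finset.mem_image.1 hz
    obtain ⟨haX, har⟩ := Finset.mem_sdiff.1 ha
    have hay : a ≠ (y : ℤ × ℤ) := by
      rintro rfl
      exact har y.2
    obtain ⟨h1, h2, h3⟩ := hlab a haX hay
    exact (hmov _ h1 h2 (h3 ▸ hcell.port a haX har)).1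
  · obtain ⟨a, ha, rfl⟩ := Finset.mem_image.1 hz
    obtain ⟨haX, har⟩ := Finset.mem_sdiff.1 ha
    have hay : a ≠ (y : ℤ × ℤ) := by
      rintro rfl
      exact har y.2
    obtain ⟨h1, h2, h3⟩ := hlab a haX hay
    exact (hmov _ h1 h2 (h3 ▸ hcell.port a haX har)).2

/-- **HC4 with the smooth law `nuS lam l` at the movable sites**: all constants; the law of the
centre has a density at least `κy` on `[-(lam' + lam) / 2, (lam' + lam) / 2]` (`κy` any positive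
number fixed in advance) -/
theorem hc4_nuS {lam E l κy : ℝ} (hlam : 0 < lam) (hE : |E| < 4 + lam) (hl : 0 < l)
    (hl2 : 2 * l ≤ lam) (hκy : 0 < κy) :
    ∃ (C κ lam' : ℝ) (ms R0 r0 : ℕ), 1 ≤ C ∧ 0 < κ ∧ κ < 1 ∧ 0 < lam' ∧ lam' < lam ∧
      (∀ r : ℕ, r0 ≤ r → ∃ (Vs : ℤ × ℤ → ℝ) (y : Xr r), CellGood E lam' κ ms R0 r Vs y) ∧
      ∀ {D : V3} {N : ℕ} [NeZero N] {X : Finset (Tor N)} {i r : ℕ} {c : Loc} {y : Xr r}
        {Vs : ℤ × ℤ → ℝ} {w b1 : ℝ}, CellIn D i r c (y : ℤ × ℤ) Vs w →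
        D.m i ∣ N → CellGood E lam' κ ms R0 r Vs y → 0 ≤ w → 0 ≤ b1 →
        (∀ k, D.mov k → D.ν k = nuS lam l) →
        2 * (w + b1) * (2 * (r : ℝ) + 1) ^ (ms + 2) ≤ 1 → ∀ {δ : ℝ},
        32 * (2 * (r : ℝ) + 1) ^ ms * κ ^ (r - R0) ≤ δ →
        32 * (2 * (r : ℝ) + 1) ^ (2 * ms + 2) * (w + b1) ≤ δ →
        ∀ {T : ℝ}, 0 ≤ T → ∀ {ε q : ℝ}, 1 ≤ q → C * (8 * (r : ℝ) + 9) * (1 + T) ≤ q ^ 2 →
        δ * (C * (8 * (r : ℝ) + 9) ^ 4 * q ^ 5) ≤ 1 → ε + 1 / q ≤ 1 / C → ∀ {ηc : ℝ},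
        C * (8 * (r : ℝ) + 9) * Real.sqrt (ε + 1 / q) ≤ ηc →
        HC4 D N X E i κy ((lam' + lam) / 2) T b1 ε ηc := by
  obtain ⟨κ, lam', ms, R0, r0, h1, h2, h3, h4, h⟩ := exists_cellGood hlam hE
  haveI : IsProbabilityMeasure (nuS lam l) := isProbabilityMeasure_nuS hl (by linarith)
  obtain ⟨C, hC, hisl⟩ := islFin (ay := (lam' + lam) / 2) (X := lam' + |E|)
    (g := (lam - lam') / 2) (E := E) (glaw_nuS hl (show l < lam by linarith))
    (plaw_nuS hl hl2) hκy (by linarith) (by linarith)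
  refine ⟨C, κ, lam', ms, R0, r0, hC, h1, h2, h3, h4, h, ?_⟩
  intro D N _ X i r c y Vs w b1 hcell hmN hG hw hb1 hlaw hu δ hδ1 hδ2 T hT ε q hq1 hq2
    hq3 hq4 ηc hη
  exact hc4_of_isl hisl hC hcell hmN hG hw hb1 hlaw le_rfl (by linarith) hu hδ1 hδ2 hT hq1 hq2
    hq3 hq4 hη

/-! ### the law of the centre with independent noise -/

/-- adding independent noise which is at most `h` with probability at least `1/2` keeps a lower
bound of the density -/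
theorem densGe_conv {κ a h : ℝ} {ν m : Measure ℝ} [IsProbabilityMeasure ν]
    [IsProbabilityMeasure m] (hκ : 0 ≤ κ) (hd : DensGe κ a ν) {p : ℝ} (hp : 0 ≤ p)
    (hm : ENNReal.ofReal p ≤ m (Set.Icc (-h) h)) :
    DensGe (p * κ) (a - h) ((ν.prod m).map fun z => z.1 + z.2) := by
  rw [DensGe]
  refine Measure.le_iff.2 fun s hs => ?_
  rw [Measure.smul_apply, smul_eq_mul, Measure.restrict_apply hs,
    Measure.map_apply (by fun_prop) hs, Measure.prod_apply_symm (by measurability)]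
  have h1 : ∀ t ∈ Set.Icc (-h) h, ENNReal.ofReal κ * volume (s ∩ Set.Icc (-(a - h)) (a - h)) ≤
      ν ((fun x => (x, t)) ⁻¹' ((fun z : ℝ × ℝ => z.1 + z.2) ⁻¹' s)) := by
    intro t ht
    have h2 := Measure.le_iff.1 hd ((fun x => x + t) ⁻¹' s) (hs.preimage (by fun_prop))
    rw [Measure.smul_apply, smul_eq_mul, Measure.restrict_apply (hs.preimage (by fun_prop))] at h2
    refine le_trans ?_ h2
    refine mul_le_mul_right ?_ _
    have h3 : volume (s ∩ Set.Icc (-(a - h)) (a - h)) =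
        volume ((fun x => x + t) ⁻¹' (s ∩ Set.Icc (-(a - h)) (a - h))) := by
      rw [measure_preimage_add_right]
    rw [h3]
    refine measure_mono fun x hx => ⟨hx.1, ?_⟩
    have h4 := hx.2
    rw [Set.mem_Icc] at h4 ht ⊢
    constructor <;> linarith [h4.1, h4.2, ht.1, ht.2]
  calc ENNReal.ofReal (p * κ) * volume (s ∩ Set.Icc (-(a - h)) (a - h))
      = ENNReal.ofReal p * (ENNReal.ofReal κ * volume (s ∩ Set.Icc (-(a - h)) (a - h))) := by
        rw [ENNReal.ofReal_mul hp, mul_assoc]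
    _ ≤ m (Set.Icc (-h) h) * (ENNReal.ofReal κ * volume (s ∩ Set.Icc (-(a - h)) (a - h))) :=
        mul_le_mul_left hm _
    _ = ∫⁻ _ in Set.Icc (-h) h, ENNReal.ofReal κ * volume (s ∩ Set.Icc (-(a - h)) (a - h)) ∂m := by
        rw [setLIntegral_const, mul_comm]
    _ ≤ ∫⁻ t in Set.Icc (-h) h, ν ((fun x => (x, t)) ⁻¹'
          ((fun z : ℝ × ℝ => z.1 + z.2) ⁻¹' s)) ∂m :=
        setLIntegral_mono' measurableSet_Icc h1
    _ ≤ _ := setLIntegral_le_lintegral _ _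

end P365V4.H685
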